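import Vale.Agent.Lib.P046T.Stmt
import Vale.Agent.Lib.P046.Stopped

/-! # P046, third statement: comparison with the first one -/

open Finset Filter Topology
open Vale.Agent.P046 (removeTriangle finalGraph Ef ex T)

namespace Vale.Agent.P046T

variable {n : ℕ}

theorem deleteEdges_sym2 (G : SimpleGraph (Fin n)) (s : Finset (Fin n)) :
    G.deleteEdges (s.sym2 : Set (Sym2 (Fin n))) = removeTriangle G s := by
  unfold removeTriangle
  congr 1
  ext e
  simp only [Finset.mem_coe, Finset.mem_sym2_iff]
  rfl

open Classical in
theorem nonempty_iff (G : SimpleGraph (Fin n)) :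
    (G.cliqueFinset 3).Nonempty ↔ ¬ G.CliqueFree 3 := by
  unfold SimpleGraph.CliqueFree
  push Not
  constructor
  · rintro ⟨s, hs⟩
    exact ⟨s, SimpleGraph.mem_cliqueFinset_iff.1 hs⟩
  · rintro ⟨s, hs⟩
    exact ⟨s, SimpleGraph.mem_cliqueFinset_iff.2 hs⟩

theorem Ef_free (f : SimpleGraph (Fin n) → ℝ) {G : SimpleGraph (Fin n)} (h : G.CliqueFree 3) :
    Ef f G = f G := by
  classical
  have hne : ¬ (G.cliqueFinset 3).Nonempty := fun h' => (nonempty_iff G).1 h' h
  have hit : ∀ (m : ℕ) (F : SimpleGraph (Fin n) → ℝ), T^[m] F G = F G := by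
    intro m
    induction m with
    | zero => intro F; rfl
    | succ m ihm =>
      intro F
      rw [Function.iterate_succ_apply, ihm, P046.T_of_empty _ _ hne]
  exact hit _ f

open Classical in
/-- the law from the existing process -/
noncomputable def law (n : ℕ) (G H : SimpleGraph (Fin n)) : ℝ :=
  Ef (fun G' => if G' = H then 1 else 0) G

open Classical in
theorem removalLaw_law (n : ℕ) : RemovalLaw n (law n) := by
  refine ⟨fun G hG H => ?_, fun G hG H => ?_⟩
  · unfold law
    rw [Ef_free _ hG]
    by_cases h : G = H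
    · rw [if_pos h, if_pos h.symm]
    · rw [if_neg h, if_neg (Ne.symm h)]
  · unfold law
    simp_rw [deleteEdges_sym2]
    have h1 := congrFun (P046.T_Ef (fun G' : SimpleGraph (Fin n) => if G' = H then (1 : ℝ) else 0)) G
    rw [← h1, P046.T_of_nonempty _ _ ((nonempty_iff G).2 hG)]

theorem eq_law {p : SimpleGraph (Fin n) → SimpleGraph (Fin n) → ℝ} (hp : RemovalLaw n p) :
    p = law n := by
  classical
  have hl := removalLaw_law n
  have key : ∀ (k : ℕ) (G : SimpleGraph (Fin n)), Nat.card G.edgeSet = k → ∀ H,
      p G H = law n G H := by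
    intro k
    induction k using Nat.strong_induction_on with
    | _ k ih =>
      intro G hG H
      by_cases hf : G.CliqueFree 3
      · rw [hp.stop G hf, hl.stop G hf]
      · rw [hp.step G hf, hl.step G hf]
        congr 1
        refine Finset.sum_congr rfl fun s hs => ?_
        rw [deleteEdges_sym2]
        have h3 := P046.card_removeTriangle G s (SimpleGraph.mem_cliqueFinset_iff.1 hs)
        exact ih _ (by omega) _ rfl H
  funext G H
  exact key _ G rfl H

theorem law_top (H : SimpleGraph (Fin n)) : law n ⊤ H = (finalGraph n H).toReal := by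
  classical
  unfold law
  rw [← P046.ex_finalGraph]
  unfold ex
  rw [Finset.sum_eq_single H]
  · simp
  · intro b _ hb
    simp [hb]
  · simp

end Vale.Agent.P046T
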