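import Vale.Agent.Lib.P046T.Bridge
import Vale.Agent.Lib.P046.Concl

/-! # P046, third statement: the limit theorem -/

open Finset Filter Topology
open Vale.Agent.P046 (removeTriangle finalGraph Ef ex)

namespace Vale.Agent.P046T

open Classical in
theorem main :
    (∀ n : ℕ, ∃! p, RemovalLaw n p) ∧
    ∀ p : (n : ℕ) → SimpleGraph (Fin n) → SimpleGraph (Fin n) → ℝ, (∀ n, RemovalLaw n (p n)) →
      (∀ n, (∀ H, 0 ≤ p n ⊤ H) ∧ ∑ H, p n ⊤ H = 1 ∧ ∀ H, 0 < p n ⊤ H → H.CliqueFree 3) ∧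
      (∀ ε : ℝ, 0 < ε → Tendsto (fun n : ℕ => ∑ H : SimpleGraph (Fin n) with
          ε ≤ |(H.edgeSet.ncard : ℝ) / (n : ℝ) ^ (3 / 2 : ℝ) - 1 / (2 * √2)|, p n ⊤ H)
        atTop (𝓝 0)) ∧
      Tendsto (fun n : ℕ => (∑ H, p n ⊤ H * (H.edgeSet.ncard : ℝ)) / (n : ℝ) ^ (3 / 2 : ℝ))
        atTop (𝓝 (1 / (2 * √2))) := by
  refine ⟨fun n => ⟨law n, removalLaw_law n, fun p hp => eq_law hp⟩, fun p hp => ?_⟩
  have hlaw : ∀ n (H : SimpleGraph (Fin n)), p n ⊤ H = (finalGraph n H).toReal := by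
    intro n H
    rw [eq_law (hp n), law_top]
  simp_rw [hlaw]
  have hcard : ∀ n (H : SimpleGraph (Fin n)), (H.edgeSet.ncard : ℝ) = (Nat.card H.edgeSet : ℝ) := by
    intro n H
    rw [Nat.card_coe_set_eq]
  simp_rw [hcard]
  refine ⟨fun n => ⟨fun H => ENNReal.toReal_nonneg, ?_, fun H hH => ?_⟩, fun ε hε => ?_,
    P046.final_theorem.2⟩
  · have h := P046.ex_const (finalGraph n) 1
    unfold ex at h
    simpa using h
  · refine P046.final_cliqueFree n H ?_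
    rw [PMF.mem_support_iff]
    intro h0
    rw [h0] at hH
    simp at hH
  · refine squeeze_zero (fun n => Finset.sum_nonneg fun H _ => ENNReal.toReal_nonneg) (fun n => ?_)
      (P046.final_theorem.1 (ε / 2) (half_pos hε))
    rw [P046.toOuterMeasure_toReal]
    unfold ex
    rw [Finset.sum_filter]
    refine Finset.sum_le_sum fun H _ => ?_
    beta_reduce
    by_cases h : ε ≤ |(Nat.card H.edgeSet : ℝ) / (n : ℝ) ^ (3 / 2 : ℝ) - 1 / (2 * √2)|
    · rw [if_pos h, if_pos (show H ∈ {G : SimpleGraph (Fin n) | ε / 2 <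
        |(Nat.card G.edgeSet : ℝ) / (n : ℝ) ^ (3 / 2 : ℝ) - 1 / (2 * √2)|} from
          lt_of_lt_of_le (half_lt_self hε) h), mul_one]
    · rw [if_neg h]
      refine mul_nonneg ENNReal.toReal_nonneg ?_
      split_ifs <;> norm_num

end Vale.Agent.P046T
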