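import Mathlib

/-! # P046, third statement: the law of the final graph by its first-step equations -/

open Finset

namespace Vale.Agent.P046T

open Classical in
/-- `p G H` is the probability that the random triangle removal process started from the graph `G`
on the vertices `0, …, n - 1` stops at the graph `H`: it satisfies the two first-step equations
(and by induction on the number of edges it is determined by them). -/
structure RemovalLaw (n : ℕ) (p : SimpleGraph (Fin n) → SimpleGraph (Fin n) → ℝ) : Prop where
  /-- The process stops when the current graph contains no triangle. -/
  stop : ∀ G, G.CliqueFree 3 → ∀ H, p G H = if H = G then 1 else 0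
  /-- Otherwise a triangle `s` of the current graph `G` is chosen uniformly at random among all
  triangles of `G`, its three edges are deleted, and the process goes on. -/
  step : ∀ G, ¬ G.CliqueFree 3 → ∀ H,
    p G H = (∑ s ∈ G.cliqueFinset 3, p (G.deleteEdges (s.sym2 : Set (Sym2 (Fin n)))) H) /
      #(G.cliqueFinset 3)

end Vale.Agent.P046T
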